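import Vale.Agent.P366.H745.G.Core
import Vale.Agent.P366.H353.CG.Round

/-! Several convex bodies: the case of equality in Minkowski's inequality. -/

open MeasureTheory Metric Filter Topology Set
open scoped ContDiff ENNReal

noncomputable section
namespace Vale.Agent.H745C

open Vale.Agent.P366 (flux)
open Vale.Agent.P366.CH
open Vale.Agent.P366.Convex
open Vale.Agent.P366.H353.N (SI om SI_congr ne_zero_of_one)
open Vale.Agent.P366.Kerr (NullCone IsCut)
open Vale.Agent.P366.KSN (sg dts)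
open Vale.Agent.P366.Stmt

variable {n : ℕ}

/-- The flux inequality, for the flux field (without the factor `2`). -/
theorem flux_half {ι : Type} [Fintype ι] {C : ι → NullCone n} [Fact (3 ≤ n)] {D : Exterior n}
    (hB : Bodies D.F C) {Z : Fin n → E n → ℝ}
    (hZ : ∀ x, 0 ≤ D.F x → ∀ i, ContDiffAt ℝ 1 (Z i) x)
    (hpos : ∀ y, 0 < D.F y → 0 ≤ 2 * ∑ i, pd i (Z i) y)
    (hbd : ∀ k x, ‖x‖ = 1 → mc (C k) x / 2 ≤ ∑ i, Z i (bp (C k) x) * x i) {c : ℝ}
    (he : Tendsto (flux Z) atTop (𝓝 (((n : ℝ) - 1) * om n * c))) :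
    ∑ k, SI (fun x => sg (C k).H ((C k).U x) x) / (2 * ((n : ℝ) - 1) * om n) ≤ c := by
  have h3 := Fact.out (p := 3 ≤ n)
  have hn : (3 : ℝ) ≤ n := by exact_mod_cast h3
  have hom : 0 < om n := Vale.Agent.P366.H353.N.om_pos
  have hc : 0 < 2 * ((n : ℝ) - 1) * om n := mul_pos (by linarith) hom
  have he2 : Tendsto (flux fun i x => 2 * Z i x) atTop
      (𝓝 (2 * (((n : ℝ) - 1) * om n * c))) :=
    (he.const_mul 2).congr fun ρ => (Vale.Agent.H45G.flux_two Z ρ).symm
  have h := flux_loc hB (Z := fun i x => 2 * Z i x)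
    (fun x hx i => contDiffAt_const.mul (hZ x hx i)) (fun y hy => ?_) (fun k x hx => ?_) he2
  · rw [← Finset.sum_div, div_le_iff₀ hc]
    refine h.trans (le_of_eq ?_)
    ring
  · have e : ∀ i, pd i (fun x => 2 * Z i x) y = 2 * pd i (Z i) y := fun i => by
      have h1 : DifferentiableAt ℝ (Z i) y := (hZ y hy.le i).differentiableAt (by simp)
      have h2 : DifferentiableAt ℝ (fun x => 2 * Z i x) y := h1.const_mul 2
      unfold pd
      rw [h2.lineDeriv_eq_fderiv, h1.lineDeriv_eq_fderiv, fderiv_const_mul h1]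
      rfl
    simp only [e, ← Finset.mul_sum]
    exact hpos y hy
  · have h1 := hbd k x hx
    have e : ∑ i, 2 * Z i (bp (C k) x) * x i = 2 * ∑ i, Z i (bp (C k) x) * x i := by
      rw [Finset.mul_sum]
      exact Finset.sum_congr rfl fun i _ => by ring
    show mc (C k) x ≤ ∑ i, 2 * Z i (bp (C k) x) * x i
    rw [e]
    linarith

/-- A ball, by its support function. -/
lemma ball_iff3 (hn : 0 < n) (r : ℝ) (c z : E n) :
    (∀ x : E n, len x = 1 → ∑ i, x i * z i < r + ∑ i, c i * x i) ↔ len (z - c) < r := by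
  have hin : ∀ x w : E n, ∑ i, x i * w i = inner ℝ x w := fun x w => by
    rw [PiLp.inner_apply]
    exact Finset.sum_congr rfl fun i _ => by simp [mul_comm]
  have e : ∀ x : E n, ∑ i, x i * z i - ∑ i, c i * x i = inner ℝ x (z - c) := fun x => by
    rw [inner_sub_right, ← hin, ← hin]
    congr 1
    exact Finset.sum_congr rfl fun i _ => mul_comm _ _
  constructor
  · intro h
    show ‖z - c‖ < r
    by_cases hw : z - c = 0
    · obtain ⟨x, hx⟩ := Vale.Agent.P366.KSN.exists_unit' hn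
      have h1 := h x hx
      have h2 := e x
      rw [hw, inner_zero_right] at h2
      rw [hw, norm_zero]
      linarith
    · have hp : 0 < ‖z - c‖ := norm_pos_iff.2 hw
      have hx : ‖‖z - c‖⁻¹ • (z - c)‖ = 1 := by
        rw [norm_smul, norm_inv, norm_norm, inv_mul_cancel₀ hp.ne']
      have h1 := h (‖z - c‖⁻¹ • (z - c)) hx
      have h2 := e (‖z - c‖⁻¹ • (z - c))
      rw [inner_smul_left, real_inner_self_eq_norm_sq] at h2
      have h3 : (starRingEnd ℝ) ‖z - c‖⁻¹ * ‖z - c‖ ^ 2 = ‖z - c‖ := by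
        rw [conj_trivial]
        field_simp
      rw [h3] at h2
      linarith
  · intro h x hx
    have h1 : inner ℝ x (z - c) ≤ ‖x‖ * ‖z - c‖ := real_inner_le_norm _ _
    have hx' : ‖x‖ = 1 := hx
    rw [hx', one_mul, ← e x] at h1
    have h2 : ‖z - c‖ < r := h
    linarith

/-- The function `F` of an exterior is negative somewhere. -/
lemma exists_neg (D : Exterior n) : ∃ z, D.F z < 0 := by
  by_contra hcon
  push Not at hcon
  obtain ⟨x, hx⟩ := D.bdry
  obtain ⟨i, hi⟩ := D.dom.2.1 x hx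
  apply hi
  have hmin : IsLocalMin D.F x := Filter.Eventually.of_forall fun z => by
    rw [hx]; exact hcon z
  have hd : DifferentiableAt ℝ D.F x := D.dom.1.differentiable (by simp) x
  unfold pd
  rw [hd.lineDeriv_eq_fderiv, hmin.fderiv_eq_zero]
  rfl

/-- **The case of equality**: there is one body, and it is a ball. -/
theorem ball_of_eq [Fact (3 ≤ n)] {D : Exterior n} {N : ℕ} {h : Fin N → E n → ℝ}
    (hs : ∀ k, IsSupport (h k)) (hB : Bodies D.F fun k => supC (hs k)) {A c0 : ℝ}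
    (h1 : ∑ k, SI (fun x => sg (supC (hs k)).H ((supC (hs k)).U x) x) /
      (2 * ((n : ℝ) - 1) * om n) ≤ c0)
    (h2 : A ≤ bArea fun k => supC (hs k))
    (h3 : (∃ j k : Fin N, j ≠ k) → A < bArea fun k => supC (hs k)) (he : A = c0)
    (hS : ∀ z, D.F z < 0 ↔ ∃ k, ∀ x, len x = 1 → ∑ i, x i * z i < h k x) :
    ∃ (c : E n) (r : ℝ), 0 < r ∧ ∀ z, D.F z < 0 ↔ len (z - c) < r := by
  have h0 := Fact.out (p := 3 ≤ n)
  have hm : ∀ k, 1 / 2 * (SI (fun x => dts (supC (hs k)).H ((supC (hs k)).U x) x) / om n) ^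
      (((n : ℝ) - 2) / ((n : ℝ) - 1)) ≤
      SI (fun x => sg (supC (hs k)).H ((supC (hs k)).U x) x) / (2 * ((n : ℝ) - 1) * om n) :=
    fun k => by
      obtain ⟨ρ, hρ⟩ := hB.rad k
      exact mink_body hρ
  have hle : bArea (fun k => supC (hs k)) ≤ ∑ k,
      SI (fun x => sg (supC (hs k)).H ((supC (hs k)).U x) x) / (2 * ((n : ℝ) - 1) * om n) := by
    unfold bArea
    exact Finset.sum_le_sum fun k _ => hm k
  have hone : ∀ j k : Fin N, j = k := by
    by_contra hcon
    push Not at hcon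
    have := h3 hcon
    linarith
  obtain ⟨k0⟩ := nonempty_bodies hB
  have hk : SI (fun x => sg (supC (hs k0)).H ((supC (hs k0)).U x) x) /
      (2 * ((n : ℝ) - 1) * om n) ≤
      1 / 2 * (SI (fun x => dts (supC (hs k0)).H ((supC (hs k0)).U x) x) / om n) ^
        (((n : ℝ) - 2) / ((n : ℝ) - 1)) := by
    have huniv : (Finset.univ : Finset (Fin N)) = {k0} := by
      ext k
      simp [hone k k0]
    unfold bArea at h2
    rw [huniv, Finset.sum_singleton] at h1 h2
    linarith
  obtain ⟨r, c, hr⟩ := Vale.Agent.H353G.sup_ball (hs k0) hk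
  have hb : ∀ z, D.F z < 0 ↔ len (z - c) < r := by
    intro z
    rw [hS z, ← ball_iff3 (by omega) r c z]
    constructor
    · rintro ⟨k, hk1⟩ x hx
      rw [← hr x hx, ← hone k k0]
      exact hk1 x hx
    · intro h4
      exact ⟨k0, fun x hx => by rw [hr x hx]; exact h4 x hx⟩
  obtain ⟨z, hz⟩ := exists_neg D
  refine ⟨c, r, ?_, hb⟩
  have h5 : len (z - c) < r := (hb z).1 hz
  exact (norm_nonneg (z - c)).trans_lt h5

end Vale.Agent.H745C
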