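import Vale.Agent.P366.H745.G.Part2G
import Vale.Agent.P366.H745.G.Ball
import Vale.Agent.P366.H353.CG.Bdr
import Vale.Agent.P366.H375.G.Flux
import Vale.Agent.P366.H707.G.DivXY
import Vale.Agent.P366.H208.G.G2

/-! Several convex horizons, metrics `g = δ + F df ⊗ df`, with the case of equality. -/

open MeasureTheory Metric Filter Topology Set
open scoped ContDiff ENNReal

noncomputable section
namespace Vale.Agent.H745C

open Vale.Agent.P366 (flux)
open Vale.Agent.P366.CH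
open Vale.Agent.P366.CF (QZ)
open Vale.Agent.P366.FG
open Vale.Agent.P366.Convex
open Vale.Agent.P366.H353.N (SI om SI_congr ne_zero_of_one)
open Vale.Agent.P366.Kerr (NullCone IsCut)
open Vale.Agent.P366.Stmt

variable {n : ℕ}

theorem part2E (hn : 3 ≤ n) {D D' : Exterior n} (hO : IsCut D' D) (hAF : D.IsAF)
    (hT : D'.Trapped) {m : ℝ} (hm : D.IsEnergy m) :
    ∀ (N : ℕ) (h : Fin N → E n → ℝ) (f F u : E n → ℝ) (Y : Fin n → E n → ℝ) (y P : Fin n → ℝ),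
      (∀ k, IsSupport (h k)) →
      (∀ j k, j ≠ k → ∀ z : E n, ¬ ((∀ x, len x = 1 → ∑ i, x i * z i ≤ h j x) ∧
        ∀ x, len x = 1 → ∑ i, x i * z i ≤ h k x)) →
      (∀ z, D'.F z < 0 ↔ ∃ k, ∀ x, len x = 1 → ∑ i, x i * z i < h k x) →
      Smooth f → Smooth F → Smooth u → (∀ i, Smooth (Y i)) →
      (∀ k x z, len x = 1 → len z = 1 → f (ray (h k) x 0) = f (ray (h k) z 0)) →
      (∀ x, 0 ≤ D'.F x → ∀ i j, D'.g x i j = lvlMetric f F x i j) →
      (∀ k x, len x = 1 → ∃ l : ℝ,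
        (1 + u (ray (h k) x 0) * ∑ i, pd i f (ray (h k) x 0) * x i) ^ 2 ≤ l ∧
        ∀ i, Y i (ray (h k) x 0) = -(l * (x i / wsq f F (ray (h k) x 0)))) →
      (∃ a : ℝ, (n : ℝ) / 2 - 1 < a ∧
        ∀ i, (BigO a fun x => Y i x - y i) ∧ BigO a fun x => u x * pd i f x) →
      (∃ b : ℝ, (n : ℝ) - 1 < b ∧ ∀ i, BigO b fun x => u x ^ 2 * cf f i x) →
      (∀ x, 0 < D'.F x → StarF D'.g D'.K f F u Y x) →
      (D.IsMomentum P ∨ ∀ i x, Y i x = 0) →
      (D.Amin ≤ D.area D'.F ∧ D.area D'.F ≠ ⊤ ∧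
        1 / 2 * (D.Amin.toReal / omega n) ^ (((n : ℝ) - 2) / (n - 1)) ≤
          1 / 2 * ((D.area D'.F).toReal / omega n) ^ (((n : ℝ) - 2) / (n - 1)) ∧
        1 / 2 * ((D.area D'.F).toReal / omega n) ^ (((n : ℝ) - 2) / (n - 1)) ≤
          m - 1 / 2 * ∑ j, y j * P j) ∧
      (1 / 2 * ((D.area D'.F).toReal / omega n) ^ (((n : ℝ) - 2) / (n - 1)) =
        m - 1 / 2 * ∑ j, y j * P j →
        ∃ (c : E n) (r : ℝ), 0 < r ∧ ∀ z, D'.F z < 0 ↔ len (z - c) < r) ∧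
      ((∀ j, m * y j = 2 * P j) → ∑ j, y j ^ 2 < 4 → √(∑ j, P j ^ 2) < m ∧
        1 / 2 * ((D.area D'.F).toReal / omega n) ^ (((n : ℝ) - 2) / (n - 1)) ≤
          √(m ^ 2 - ∑ j, P j ^ 2)) := by
  intro N h f F u Y y P hs hsep hS hf hF hu hY hlev hg hYS hinf hb hst hP
  have : Fact (3 ≤ n) := ⟨hn⟩
  have hAF' := Vale.Agent.P366.KSR.cut_AF hO hAF
  have hm' := Vale.Agent.P366.KSR.cut_energy hO hm
  have hB : Bodies D'.F fun k => supC (hs k) :=
    bodies_of hs D'.dom.1.continuous (fun j k hjk y => by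
      by_contra hcon
      push Not at hcon
      exact hsep j k hjk y ⟨fun x hx => (hcon x hx).1, fun x hx => (hcon x hx).2⟩) hS
  obtain ⟨C, hC⟩ : ∃ C : Fin N → NullCone n, C = fun k => supC (hs k) := ⟨_, rfl⟩
  rw [← hC] at hB
  have hbp : ∀ k x, ‖x‖ = 1 → bp (C k) x = ray (h k) x 0 := fun k x hx => by
    rw [hC]; exact bp_sup (hs k) hx
  have hlev' : ∀ k x y, ‖x‖ = 1 → ‖y‖ = 1 → f (bp (C k) x) = f (bp (C k) y) :=
    fun k x y hx hy => by rw [hbp k x hx, hbp k y hy]; exact hlev k x y hx hy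
  have har : ∀ k (x : E n), ‖x‖ = 1 → ∀ i j, D'.g (bp (C k) x) i j =
      (if i = j then 1 else 0) +
        (F (bp (C k) x) * ∑ i, pd i f (bp (C k) x) ^ 2) * x i * x j := by
    intro k x hx i j
    have h1 := grad_leaf hB hf hlev' k hx
    obtain ⟨a, ha⟩ : ∃ a, a = ∑ i, pd i f (bp (C k) x) * x i := ⟨_, rfl⟩
    rw [← ha] at h1
    rw [hg _ (hB.bdr k x hx).ge]
    unfold lvlMetric
    have h2 : ∑ i, pd i f (bp (C k) x) ^ 2 = a ^ 2 := by
      have one : ∑ i, x i ^ 2 = 1 := by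
        rw [← Vale.Agent.P366.KSN.sum_xx hx]
        exact Finset.sum_congr rfl fun i _ => by ring
      calc ∑ i, pd i f (bp (C k) x) ^ 2 = ∑ i, a ^ 2 * x i ^ 2 :=
            Finset.sum_congr rfl fun i _ => by rw [h1]; ring
        _ = a ^ 2 := by rw [← Finset.mul_sum, one, mul_one]
    rw [h2, h1 i, h1 j]
    ring
  obtain ⟨p1, p2, p3, p4, p5, p6⟩ :=
    pen_gen (C := C) (nonempty_bodies hB) (Vale.Agent.P366.KSR.cut_Amin hO)
      (area_nu (w := fun z => F z * ∑ i, pd i f z ^ 2) hB hO har)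
  have hflux : Tendsto (flux (XY D'.g D'.K f F u Y)) atTop
      (𝓝 (((n : ℝ) - 1) * om n * (m - (∑ j, y j * P j) / 2))) := by
    rcases hP with hP | hY0
    · obtain ⟨a, ha, hYa⟩ := hinf
      exact flux_XY hn hf hF hu hg hAF' hm' (Vale.Agent.P366.KSR.cut_momentum hO hP) hY
        ⟨a, ha, fun i => (hYa i).1⟩ ⟨a, ha, fun i => (hYa i).2⟩ hb
    · obtain ⟨a, ha, hYa⟩ := hinf
      have hy := y_zero hn ha (fun i => (hYa i).1) hY0
      have e : XY D'.g D'.K f F u Y = XG D'.g D'.K f F u := by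
        funext i x
        unfold XY
        rw [QZ_zero hY0, zero_div, sub_zero]
      rw [e]
      simp only [hy, zero_mul, Finset.sum_const_zero, zero_div, sub_zero]
      exact flux_XG hn hf hF hu hg hAF' hm' ⟨a, ha, fun i => (hYa i).2⟩ hb
  have hcd : ∀ x, 0 ≤ D'.F x → ∀ i, ContDiffAt ℝ 1 (XY D'.g D'.K f F u Y i) x :=
    fun x hx i => (Vale.Agent.H353G.XY_cd hf hF hu hY hg hx i).of_le (by exact_mod_cast le_top)
  have hdv : ∀ x, 0 < D'.F x → 0 ≤ 2 * ∑ i, pd i (XY D'.g D'.K f F u Y i) x := fun x hx =>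
    (Vale.Agent.H707G.star_iff_of hf hF hu hY hg hx
        (Vale.Agent.H208G.alg2 hf hF hu (isOpen_lt continuous_const D'.dom.1.continuous) hx
          (fun z hz => hg z (le_of_lt hz)) (Vale.Agent.H707G.wsq_pos hg hx.le))).2 (hst x hx)
  have hbd : ∀ k x, ‖x‖ = 1 →
      mc (C k) x / 2 ≤ ∑ i, XY D'.g D'.K f F u Y i (bp (C k) x) * x i := fun k x hx => by
    obtain ⟨l, hl, hYl⟩ := hYS k x hx
    rw [← hbp k x hx] at hl hYl
    exact Vale.Agent.H353G.XY_bdr hT hB hf hF hg hlev' k hx hl hYl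
  have hfl := flux_half hB hcd hdv hbd hflux
  have hE : bArea C ≤ m - (∑ j, y j * P j) / 2 := bound_half hB hcd hdv hbd hflux
  have q2 := momentum_alg4 (y := y) (P := P) p3 hE
  have e : (∑ j, y j * P j) / 2 = 1 / 2 * ∑ j, y j * P j := by ring
  rw [e] at hE hfl
  refine ⟨⟨p1, p2, p4, p5.trans hE⟩, fun heq => ?_, fun ha hb =>
    ⟨(q2 ha hb).1, p5.trans (q2 ha hb).2⟩⟩
  subst hC
  exact ball_of_eq hs hB hfl p5 p6 heq hS

end Vale.Agent.H745C
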