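import Vale.Agent.P366.H745.CH.Loc
import Vale.Agent.P366.H745.CH.Part2
import Vale.Agent.P366.H707.CF.Area
import Vale.Agent.P366.H707.G.Field

/-! Metrics `g = δ + F df ⊗ df`, several convex bodies: from the flux field to the Penrose
inequality. -/

open MeasureTheory Metric Filter Topology Set
open scoped ContDiff ENNReal

noncomputable section
namespace Vale.Agent.H745C

open Vale.Agent.P366 (flux)
open Vale.Agent.P366.CH
open Vale.Agent.P366.CF (QZ)
open Vale.Agent.P366.FG
open Vale.Agent.P366.Convex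
open Vale.Agent.P366.H353.N (SI om SI_congr ne_zero_of_one)
open Vale.Agent.P366.Kerr (NullCone IsCut)
open Vale.Agent.P366.Stmt

variable {n : ℕ} {ι : Type} [Fintype ι] {C : ι → NullCone n}

/-- The bound of the sum of the area terms, for the flux field (without the factor `2`). -/
theorem bound_half [Fact (3 ≤ n)] {D : Exterior n} (hB : Bodies D.F C) {Z : Fin n → E n → ℝ}
    (hZ : ∀ x, 0 ≤ D.F x → ∀ i, ContDiffAt ℝ 1 (Z i) x)
    (hpos : ∀ y, 0 < D.F y → 0 ≤ 2 * ∑ i, pd i (Z i) y)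
    (hbd : ∀ k x, ‖x‖ = 1 → mc (C k) x / 2 ≤ ∑ i, Z i (bp (C k) x) * x i) {m S : ℝ}
    (he : Tendsto (flux Z) atTop (𝓝 (((n : ℝ) - 1) * om n * (m - S / 2)))) :
    bArea C ≤ m - S / 2 := by
  refine bound_loc hB (Z := fun i x => 2 * Z i x) (fun x hx i => contDiffAt_const.mul (hZ x hx i))
    (fun y hy => ?_) (fun k x hx => ?_) ?_
  · have e : ∀ i, pd i (fun x => 2 * Z i x) y = 2 * pd i (Z i) y := fun i => by
      have h1 : DifferentiableAt ℝ (Z i) y := (hZ y hy.le i).differentiableAt (by simp)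
      have h2 : DifferentiableAt ℝ (fun x => 2 * Z i x) y := h1.const_mul 2
      unfold pd
      rw [h2.lineDeriv_eq_fderiv, h1.lineDeriv_eq_fderiv, fderiv_const_mul h1]
      rfl
    simp only [e, ← Finset.mul_sum]
    exact hpos y hy
  · have h1 := hbd k x hx
    have e : ∑ i, 2 * Z i (bp (C k) x) * x i = 2 * ∑ i, Z i (bp (C k) x) * x i := by
      rw [Finset.mul_sum]
      exact Finset.sum_congr rfl fun i _ => by ring
    show mc (C k) x ≤ ∑ i, 2 * Z i (bp (C k) x) * x i
    rw [e]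
    linarith
  · have h1 := he.const_mul 2
    have e : 2 * (((n : ℝ) - 1) * om n * (m - S / 2)) =
        2 * (((n : ℝ) - 1) * Vale.Agent.P366.omega n * m) -
          ((n : ℝ) - 1) * Vale.Agent.P366.omega n * S := by
      rw [om_omega]; ring
    rw [e] at h1
    refine h1.congr fun ρ => ?_
    exact (Vale.Agent.H45G.flux_two Z ρ).symm

omit [Fintype ι] in
/-- The gradient of `f` on the leaves. -/
lemma grad_leaf [Fact (3 ≤ n)] {D : Exterior n} (hB : Bodies D.F C) {f : E n → ℝ} (hf : Smooth f)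
    (hlev : ∀ k x y, ‖x‖ = 1 → ‖y‖ = 1 → f (bp (C k) x) = f (bp (C k) y)) (k : ι) {x : E n}
    (hx : ‖x‖ = 1) (i : Fin n) :
    pd i f (bp (C k) x) = (∑ i, pd i f (bp (C k) x) * x i) * x i := by
  obtain ⟨ρ, hρ⟩ := hB.rad k
  have h := (lev_body (C k) hρ hf (hlev k) hx).2
  exact h.fst i

end Vale.Agent.H745C
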